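import Vale.Agent.N016.Main

/-!
Artin's primitive root conjecture with the true order of magnitude.
-/

/-- For every integer `a` other than `-1` and the squares there is `c > 0` such that, for all
large `x`, the integer `a` is a primitive root modulo at least `c x / log x` primes `p ≤ x`, and,
for each `1 < l ≤ 2` and all large `x`, modulo at least `c (l - 1) x / log x` primes
`x < p < l x`. -/
theorem Vale.Agent.Results.P016.A0PositiveDensity.result (a : ℤ) (h1 : a ≠ -1)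
    (h2 : ¬ IsSquare a) :
    ∃ c : ℝ, 0 < c ∧
      (∃ x₀ : ℝ, ∀ x : ℝ, x₀ ≤ x → c * (x / Real.log x) ≤
        ({p : ℕ | (p : ℝ) ≤ x ∧ p.Prime ∧ ¬ (p : ℤ) ∣ a ∧
          orderOf (a : ZMod p) = p - 1}.ncard : ℝ)) ∧
      ∀ l : ℝ, 1 < l → l ≤ 2 → ∃ x₀ : ℝ, ∀ x : ℝ, x₀ ≤ x →
        c * ((l - 1) * (x / Real.log x)) ≤
          ({p : ℕ | x < p ∧ (p : ℝ) < l * x ∧ p.Prime ∧ ¬ (p : ℤ) ∣ a ∧
            orderOf (a : ZMod p) = p - 1}.ncard : ℝ) :=
  Vale.Agent.N016.density a h1 h2
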